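import Vale.Agent.P167N.NTop

open MeasureTheory Filter Topology Vale.Agent Vale.Agent.P152 Vale.Agent.P167.Pc Vale.Agent.P167.Q

theorem Vale.Agent.Results.P167.All.result (q κ α l : ℝ) (N : ℕ → Bond → ℕ) (h1 : 1 ≤ q)
    (h4 : q ≤ 4) (hκ : κ = 4 * Real.pi / Real.arccos (-√q / 2))
    (hα : α = (8 - κ) * (3 * κ - 8) / (32 * κ)) (hl : l = Real.arccos (√q / 2))
    (hN : ∀ n ω, N n ω = {γ ∈ loops ω | (0, 0) ∈ ins γ ∧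
      ∀ y ∈ ins γ, max |y.1| |y.2| ≤ (n : ℤ)}.ncard) :
    ∃ φ : Measure Bond, IsFK (√q / (1 + √q)) q φ ∧ (∀ᵐ ω ∂φ, ∀ e, (loop ω e).Finite) ∧
      (∀ f : ℝ × ℝ → ℝ, IsTest f →
        (∀ δ > 0, (∀ ω, {γ ∈ loops ω | mass δ f γ ≠ 0}.Finite) ∧ Integrable (Phq q δ f) φ) ∧
        Tendsto (fun δ => ∫ ω, Phq q δ f ω ∂φ) (𝓝[>] 0)
          (𝓝 (Real.exp (-(κ / (4 * Real.pi)) * gcov f f)))) ∧
      Tendsto (fun n : ℕ =>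
        Real.log (φ.real {ω | ∃ y ∈ clus ω (0, 0), (n : ℤ) < max |y.1| |y.2|}) / Real.log n)
        atTop (𝓝 (-α)) ∧
      Tendsto (fun x : ℤ × ℤ =>
        Real.log (φ.real {ω | x ∈ clus ω (0, 0)}) / Real.log (max |x.1| |x.2| : ℤ))
        (cofinite ⊓ 𝓟 {x | Even (x.1 + x.2)}) (𝓝 (-(2 * α))) ∧
      Tendsto (fun n : ℕ =>
        Real.log (φ.real {ω | (n : ℕ∞) ≤ (clus ω (0, 0)).encard}) / Real.log n)
        atTop (𝓝 (-(α / (2 - α)))) ∧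
      (∀ x : ℝ, 0 ≤ x → x ≤ Real.pi / 2 → Tendsto (fun n : ℕ =>
        Real.log (∫ ω, (2 * Real.cos x / √q) ^ N n ω ∂φ) / Real.log n) atTop
        (𝓝 (κ * (l ^ 2 - x ^ 2) / (8 * Real.pi ^ 2)))) ∧
      (q < 4 → Tendsto (fun n : ℕ => (∫ ω, (N n ω : ℝ) ∂φ) / Real.log n) atTop
        (𝓝 (κ * l / (4 * Real.pi ^ 2 * Real.tan l)))) := by
  obtain ⟨φ, hφ⟩ := u_ex h1 h4
  obtain ⟨c1, c2⟩ := P167Q.N.core_q h1 h4 hφ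
  have e : α = P167Q.W.al (Real.arccos (√q / 2)) := by
    rw [hα, hκ, (P167Q.W.U.z_num q h1 h4).2.2]
  have f := P167Q.N.field h1 h4 hφ
  rw [← hκ] at f
  rw [e]
  exact ⟨φ, t_link q φ (by linarith) hφ, f.1, f.2, P167Q.W.goal3 c1.eup c1.elo,
    (P167Q.U.goalU_of c2).1, (P167Q.U.goalU_of c2).2, P167Q.N.nest_q h1 h4 hφ hκ hl hN⟩
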