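import Vale.Agent.P167.QAll
import Vale.Agent.P152.Value

open MeasureTheory Filter Topology Vale.Agent.P152 Vale.Agent.P167.Pc Vale.Agent.P167.Q

theorem Vale.Agent.Results.P167.AllQ.result (q : ℝ) (h1 : 1 ≤ q) (h4 : q ≤ 4) :
    ∃ φ : Measure Bond, IsFK (√q / (1 + √q)) q φ ∧ (∀ᵐ ω ∂φ, ∀ e, (loop ω e).Finite) ∧
      ∀ f : ℝ × ℝ → ℝ, IsTest f →
      (∀ δ > 0, (∀ ω, {l ∈ loops ω | mass δ f l ≠ 0}.Finite) ∧ Integrable (Phq q δ f) φ) ∧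
      Tendsto (fun δ => ∫ ω, Phq q δ f ω ∂φ) (𝓝[>] 0)
        (𝓝 (Real.exp (-(4 * Real.pi / Real.arccos (-√q / 2) / (4 * Real.pi)) * gcov f f))) := by
  obtain ⟨φ, hφ⟩ := u_ex h1 h4
  refine ⟨φ, t_link q φ (by linarith) hφ, q_goal h1 h4 hφ (fun c c1 c2 => ?_) u_tex
    (t_cut Vale.Agent.P167.Pc.t_gl u_gl s_int) (u_arm _ φ (ang h1 h4).2.2.2.1 hφ) (s_rep s_repA)
    Vale.Agent.P167.Pc.t_phi (Vale.Agent.P167.Q.t_phi t_bas t_wind t_turn) s_gauss⟩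
  obtain ⟨P, hP, K, h0, hK, hG⟩ := main_all c1 c2
  exact ⟨P, hP, _, (Real.sq_sqrt h0.le).trans (k_value c1 c2 hK), hG⟩
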