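import Vale.Agent.P167W.UMain
import Vale.Agent.P152.Value

open MeasureTheory Filter Topology Vale.Agent.P152 Vale.Agent.P167.Pc Vale.Agent.P167.Q

theorem Vale.Agent.Results.P167.ArmQ.result (q κ : ℝ) (h1 : 1 ≤ q) (h4 : q ≤ 4)
    (hκ : κ = 4 * Real.pi / Real.arccos (-√q / 2)) :
    ∃ φ : Measure Bond, IsFK (√q / (1 + √q)) q φ ∧
      Tendsto (fun n : ℕ =>
        Real.log (φ.real {ω | ∃ y ∈ clus ω (0, 0), (n : ℤ) < max |y.1| |y.2|}) / Real.log n)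
        atTop (𝓝 (-((8 - κ) * (3 * κ - 8) / (32 * κ)))) := by
  obtain ⟨φ, hφ⟩ := u_ex h1 h4
  obtain ⟨hl, hG⟩ := q_goal h1 h4 hφ (fun c c1 c2 => by
      obtain ⟨P, hP, K, h0, hK, hG⟩ := main_all c1 c2
      exact ⟨P, hP, _, (Real.sq_sqrt h0.le).trans (k_value c1 c2 hK), hG⟩) u_tex
    (t_cut Vale.Agent.P167.Pc.t_gl u_gl s_int) (u_arm _ φ (ang h1 h4).2.2.2.1 hφ) (s_rep s_repA)
    Vale.Agent.P167.Pc.t_phi (Vale.Agent.P167.Q.t_phi t_bas t_wind t_turn) s_gauss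
  have a := Vale.Agent.P167Q.W.U.allq h1 h4 hφ hl fun f hf => (hG f hf).2
  have g := Vale.Agent.P167Q.W.goal3 a.eup a.elo
  rw [Vale.Agent.P167Q.W.Goal3, (Vale.Agent.P167Q.W.U.z_num q h1 h4).2.2, ← hκ] at g
  exact ⟨φ, t_link q φ (by linarith) hφ, g⟩
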