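import Vale.Agent.P145.FinalV
import Vale.Agent.P167.Sum

open Vale.Agent.P145 Vale.Agent.P145.AT Vale.Agent.P167

theorem Vale.Agent.Results.P167.NestFour.result :
    (∀ D : Set ℂ, IsJordanDomain D →
      ∃ ψ : ℂ → ℂ, Vale.Agent.P153.IsJordanMap ψ ∧ ψ '' Metric.ball 0 1 = D) ∧
    Nest (√4 / (1 + √4)) 4 (1 / (2 * Real.pi)) := by
  have h := conv_val (c := 2) one_lt_two le_rfl
  have e : √(4 : ℝ) = 2 := by rw [show (4 : ℝ) = 2 ^ 2 by norm_num, Real.sqrt_sq two_pos.le]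
  have hp := Real.pi_pos
  rw [div_self two_ne_zero, Real.arcsin_one, show 8 / Real.pi * (Real.pi / 2) = 4 by field_simp; ring,
    e, show (1 / (Real.pi * 2)) ^ 2 * (2 * Real.pi) = 1 / (2 * Real.pi) by field_simp] at h
  rw [e, show (2 / (1 + 2) : ℝ) = 2 / 3 by norm_num]
  exact ⟨fun _ => jdom_map, nest_of h⟩
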