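import Vale.Agent.P167Q.Top
import Vale.Agent.P167Q.XMain

open Filter Topology Vale.Agent.P167Q

theorem Vale.Agent.Results.P167.OneArm.result :
    Tendsto (fun n : ℕ =>
      Real.log (perc.real {ω | ∃ y ∈ clus ω (0, 0), (n : ℤ) < max |y.1| |y.2|}) / Real.log n)
      atTop (𝓝 (-(5 / 48))) :=
  goal2_of goal_pf
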