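import Vale.Agent.P167.PcAll
import Vale.Agent.P152.Value

open MeasureTheory Filter Topology Vale.Agent.P152 Vale.Agent.P167.Pc

theorem Vale.Agent.Results.P167.PercLoops.result :
    (∀ᵐ ω ∂perc, ∀ e, (loop ω e).Finite) ∧ ∀ f : ℝ × ℝ → ℝ, IsTest f →
      (∀ δ > 0, (∀ ω, {l ∈ loops ω | mass δ f l ≠ 0}.Finite) ∧ Integrable (Phi δ f) perc) ∧
      Tendsto (fun δ => ∫ ω, Phi δ f ω ∂perc) (𝓝[>] 0)
        (𝓝 (Real.exp (-(3 / (2 * Real.pi)) * gcov f f))) := by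
  have h1 : 1 < √3 := Real.lt_sqrt_of_sq_lt (by norm_num)
  have h2 : √3 ≤ 2 := Real.sqrt_le_iff.2 (by norm_num)
  obtain ⟨P, hP, K, h0, hK, hG⟩ := main_all h1 h2
  exact goal_of ⟨P, hP, _, (Real.sq_sqrt h0.le).trans (k_value h1 h2 hK), hG⟩ (s_lim t_tex) t_cut
    t_arm (s_rep s_repA) t_phi s_gauss
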