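import Vale.Agent.P167Q.Top
import Vale.Agent.P167Q.YMain

open MeasureTheory Filter Topology Vale.Agent.P167Q

theorem Vale.Agent.Results.P167.ZExponents.result :
    Tendsto (fun n : ℕ =>
      Real.log (perc.real {ω | ∃ y ∈ clus ω (0, 0), (n : ℤ) < max |y.1| |y.2|}) / Real.log n)
      atTop (𝓝 (-(5 / 48))) ∧
    (∀ x : ℝ, 0 ≤ x → x ≤ Real.pi / 2 → Tendsto (fun n : ℕ =>
      Real.log (∫ ω, (2 * Real.cos x) ^ nestN n ω ∂perc) / Real.log n) atTop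
      (𝓝 (1 / 12 - 3 * x ^ 2 / (4 * Real.pi ^ 2)))) ∧
    Tendsto (fun n : ℕ => (∫ ω, (nestN n ω : ℝ) ∂perc) / Real.log n) atTop
      (𝓝 (1 / (2 * Real.sqrt 3 * Real.pi))) ∧
    Tendsto (fun x : ℤ × ℤ =>
      Real.log (perc.real {ω | x ∈ clus ω (0, 0)}) / Real.log (max |x.1| |x.2| : ℤ))
      (cofinite ⊓ 𝓟 {x | Even (x.1 + x.2)}) (𝓝 (-(5 / 24))) ∧
    Tendsto (fun n : ℕ =>
      Real.log (perc.real {ω | (n : ℕ∞) ≤ (clus ω (0, 0)).encard}) / Real.log n) atTop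
      (𝓝 (-(5 / 91))) :=
  ⟨goal2_of goal_pf, goalY_of (al_of goal_pf)⟩
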